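import Vale.Agent.P205F.Interfaces

/-!
# P205, every closed surface: interfaces inside the exact twists

`ModTwistStmt` and `FinalTwistStmt` follow from `ExpandStmt`, `GoodProbStmt`, `TransposeStmt`,
`NMStmt`.

The parameter family of an expansion has two groups of parameters in its free normal component:
slow ones (amplitude `M^-q`: harmonics of the loop phase times monomials, and slow homogeneous
solutions at the base), serving the jets of order at most 3, and fine ones (harmonics of `M^κ`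
times the loop phase, of tiny amplitude), serving single top jets of order at most 10 with an error
`η = C M^e₁ / M^κ` everywhere else. The exponent
`e₁` does not depend on `κ`, so `η` beats every power of `M` that the slow group produces.
-/

namespace Vale.Agent.P205F

universe u

open scoped Manifold ContDiff RealInnerProductSpace Topology

/-- `∂x^i ∂y^j`. -/
noncomputable def pdm {X : Type*} [NormedAddCommGroup X] [NormedSpace ℝ X] (i j : ℕ)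
    (f : E2 → X) : E2 → X := (pd 0)^[i] ((pd 1)^[j] f)

/-- The free normal directions of a twist. `b = false` (exact modulo `ν²`): every normal.
`b = true` (final twist): normals orthogonal to the absorber `II(∂y,∂y)`. -/
def Free (b : Bool) (f : E2 → R4) (x : E2) (σ : R4) : Prop :=
  nrm f x σ = σ ∧ (b = true → ⟪σ, II f x (ev 1)⟫ = 0)

/-- Directions prescribed by the slow parameters at the jet `(i,j)`: the free ones, and for a final
twist also the absorber components of the jets `1, x, y, xy, yy` (these come from slow homogeneous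
solutions of the linearised equation at the base). -/
def Slow (b : Bool) (f : E2 → R4) (x : E2) (i j : ℕ) (σ : R4) : Prop :=
  nrm f x σ = σ ∧ (b = true → (i + j ≤ 2 ∧ i ≤ 1) ∨ ⟪σ, II f x (ev 1)⟫ = 0)

/-- The box of parameters. -/
def Box (d : ℕ) : Set (Fin d → ℝ) := {l | ∀ i, |l i| ≤ 1}

/-- Variation of a family in the parameter direction `v`. -/
noncomputable def dlam {d : ℕ} (F : (Fin d → ℝ) → E2 → R4) (l v : Fin d → ℝ) (x : E2) : R4 :=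
  fderiv ℝ (fun l' => F l' x) l v

/-- What an expansion at frequency `M` provides for the goodness lemma.
(slow) the jets of order `≤ 3` in the `Slow` directions are arbitrary at cost `M^e₁` independent of
`κ`; if the prescribed jets of order `≤ 1` vanish, the metric changes by `O(1/M)` to first order;
(fine) one free top jet `x^n` or `x^(n-1) y`, at cost `M^e₂`: all lower jets, the other free top
jets, the variation of the metric and, for `b = true`, the two `y`-heavy absorber jets are `≤ η`;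
higher jets stay `≤ C M^e₁`. -/
def Fam (b : Bool) {d : ℕ} (F : (Fin d → ℝ) → E2 → R4) (K : Set E2) (C : ℝ) (e₁ κ e₂ M : ℕ) :
    Prop :=
  let η : ℝ := C * (M : ℝ) ^ e₁ / (M : ℝ) ^ κ
  ContDiff ℝ ∞ (Function.uncurry F) ∧
  (∀ l ∈ Box d, ∀ x ∈ Metric.cthickening 1 K, ∀ n ≤ 12,
    ‖iteratedFDeriv ℝ n (Function.uncurry F) (l, x)‖ ≤ C * (M : ℝ) ^ e₁) ∧
  (∀ l ∈ Box d, ∀ x ∈ K, ∀ w, ‖w‖ ≤ C * ‖fderiv ℝ (F l) x w‖) ∧
  (∀ l ∈ Box d, ∀ x ∈ K, ∀ i j, i + j ≤ 3 → ‖pdm i j (F l) x‖ ≤ C * (M : ℝ) ^ (i - 1)) ∧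
  (b = true → ∀ l ∈ Box d, ∀ x ∈ K, C⁻¹ ≤ ‖II (F l) x (ev 1)‖ ∧
    ∀ v i j, i + j ≤ 10 → ‖pdm i j (Lin (F l) (dlam F l v)) x‖ ≤ η * ‖v‖) ∧
  (∀ l ∈ Box d, ∀ x ∈ K, ∀ τ : ℕ → ℕ → R4,
    (∀ i j, i + j ≤ 3 → Slow b (F l) x i j (τ i j) ∧ ‖τ i j‖ ≤ (M : ℝ) ^ i) →
    ∃ v : Fin d → ℝ, ‖v‖ ≤ C * (M : ℝ) ^ e₁ ∧
      (∀ i j, i + j ≤ 3 → ∀ σ, Slow b (F l) x i j σ →
        ⟪pdm i j (dlam F l v) x, σ⟫ = ⟪τ i j, σ⟫) ∧
      ((∀ i j, i + j ≤ 1 → τ i j = 0) →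
        ∀ i j, i + j ≤ 1 → ‖pdm i j (Lin (F l) (dlam F l v)) x‖ ≤ C / M)) ∧
  ∀ l ∈ Box d, ∀ x ∈ K, ∀ n i, 3 ≤ n → n ≤ 10 → (i = n ∨ i + 1 = n) →
    ∀ τ, Free b (F l) x τ → ‖τ‖ ≤ 1 →
    ∃ v : Fin d → ℝ, ‖v‖ ≤ C * (M : ℝ) ^ e₂ ∧
      (∀ i' j', i' + j' ≤ 10 → ‖pdm i' j' (dlam F l v) x‖ ≤ C * (M : ℝ) ^ e₁) ∧
      (∀ i' j', i' + j' < n → ‖pdm i' j' (dlam F l v) x‖ ≤ η) ∧
      (∀ i' ≤ n, ∀ σ, Free b (F l) x σ → ‖σ‖ ≤ 1 →
        |⟪pdm i' (n - i') (dlam F l v) x, σ⟫ - if i' = i then ⟪τ, σ⟫ else 0| ≤ η) ∧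
      (∀ i' j', i' + j' + 1 ≤ n → ‖pdm i' j' (Lin (F l) (dlam F l v)) x‖ ≤ η) ∧
      (b = true → (∀ i' ≤ n, ‖pdm i' (n - i') (Lin (F l) (dlam F l v)) x‖ ≤ η) ∧
        ∀ i' ≤ 1, |⟪pdm i' (n - i') (dlam F l v) x, II (F l) x (ev 1)⟫| ≤ η)

/-- GOODNESS LEMMA (G1, G2): one identity works for every family, for some parameter. -/
def GoodProbStmt (b : Bool) : Prop :=
  ∃ I : Ident, ∀ e₁ : ℕ, ∃ κ : ℕ, ∀ e₂ : ℕ, ∃ e₃ : ℕ, ∀ (d : ℕ) (K : Set E2) (C : ℝ),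
    IsCompact K → ∃ c : ℝ, 0 < c ∧ ∃ M₀ : ℕ, ∀ M, M₀ ≤ M → ∀ F : (Fin d → ℝ) → E2 → R4,
      Fam b F K C e₁ κ e₂ M →
        ∃ l ∈ Box d, ∀ x ∈ K, c / (M : ℝ) ^ e₃ ≤ I.den (jet I.N (F l) x)

/-- EXPANSION: the family of approximate twists with phase `x` at frequency `M`.
`b = false`: error `δ ν²`; `b = true`: `δ = 0`, absorber `II(∂y,∂y)`. -/
def ExpandStmt (b : Bool) : Prop :=
  ∀ (f : E2 → R4) (a : E2 → ℝ) (ν : E2 → Fin 2 → ℝ) (U K K' : Set E2),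
    ContDiff ℝ ∞ f → IsImm f → ContDiff ℝ ∞ a → HasCompactSupport a →
    (∀ i, ContDiff ℝ ∞ fun x => ν x i) → IsOpen U → IsCompact K → IsCompact K' →
    tsupport a ⊆ interior K → K ⊆ interior K' → K' ⊆ U → (∀ x ∈ U, GdAt f x) →
    (if b then ∀ x ∈ U, II f x (ev 1) ≠ 0 else ∀ x ∈ U, ν x 1 ≠ 0) →
    ∀ q : ℕ, ∃ e₁ : ℕ, ∀ κ : ℕ, ∃ e₂ : ℕ, ∀ m : ℕ, ∃ (d : ℕ) (C : ℝ) (M₀ : ℕ), ∀ M, M₀ ≤ M →
      ∃ (F : (Fin d → ℝ) → E2 → R4) (δ : (Fin d → ℝ) → E2 → ℝ),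
        Fam b F K C e₁ κ e₂ M ∧ ∀ l ∈ Box d,
          let err : E2 → S3 := fun x =>
            met (F l) x - met f x - a x ^ 2 • sq ![1, 0] - δ l x • sq (ν x)
          ContDiff ℝ ∞ (δ l) ∧ IsImm (F l) ∧
          (∀ x, x ∉ K' → F l x = f x ∧ δ l x = 0) ∧
          (b = true → ∀ x, δ l x = 0) ∧
          (∀ x, ‖F l x - f x‖ ≤ C / M ∧ |δ l x| ≤ C / M) ∧
          (∀ x ∈ K', ∀ n ≤ m,
            ‖iteratedFDeriv ℝ n (F l) x‖ ≤ C * ((M : ℝ) ^ (κ + 2)) ^ n ∧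
            ‖iteratedFDeriv ℝ n err x‖ ≤ C * ((M : ℝ) ^ (κ + 2)) ^ n / (M : ℝ) ^ m) ∧
          (∀ x, x ∉ interior K → ∀ n < q,
            ‖iteratedFDeriv ℝ n (fun z => F l z - f z) x‖ ≤ C / (M : ℝ) ^ (q - n)) ∧
          ∀ x w, nrm f x w = w → ‖w‖ ≤ C * ‖nrm (F l) x w‖

/-- Formal transposition: an identity for `Adj` gives a right inverse of `Lin`. -/
def TransposeStmt : Prop :=
  ∀ I : Ident, ∃ D : Inv, ∀ f : E2 → R4, ContDiff ℝ ∞ f → ∀ x,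
    D.den (jet D.N f x) = I.den (jet I.N f x)

/-- Goodness does not depend on the chart. -/
def GdChartStmt : Prop :=
  ∀ (M : Type u) [TopologicalSpace M] [ChartedSpace E2 M] [IsManifold (𝓡 2) ∞ M] (f : M → R4),
    ContMDiff (𝓡 2) (𝓡 4) ∞ f → ∀ (ψ : Chart M) (x : E2), GdAt f (ψ x) →
      ∃ I : Ident, 0 < I.den (jet I.N (fun z => f (ψ z)) x)

end Vale.Agent.P205F
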