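import Vale.Agent.P205F.Main.Main
import Vale.Agent.P205F.Twist.Assembly
import Vale.Agent.P205F.Patch.Stmt
import Vale.Agent.P205F.NashMoser.Main
import Vale.Agent.P205F.GoodAlg.Cov
import Vale.Agent.P205F.GoodAlg.RightInv

/-!
# P205, every closed surface: the modules still open

`IsomStmt` from the modules that are not yet proved.
-/

namespace Vale.Agent.P205F

universe u

/-- Everything else is proved. -/
theorem isomStmt_of_remaining (hTop : TopStmt.{u}) (hStart : StartStmt.{u})
    (hCrest : CrestStmt.{u}) (hE : ∀ b, ExpandStmt b) (hG : ∀ b, GoodProbStmt b) :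
    IsomStmt.{u} :=
  isomStmt_of_modules hTop hStart
    (Twist.modTwistStmt (hE false) (hG false) transposeStmt gdChartStmt NM.nmStmt) hCrest patchStmt
    (Twist.finalTwistStmt (hE true) (hG true) transposeStmt gdChartStmt NM.nmStmt)

end Vale.Agent.P205F
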