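import Vale.Agent.P205F.Defs

/-!
# P205, every closed surface: statements of the modules

`Main` derives `IsomStmt` from: `TopStmt`, `StartStmt`, `ModTwistStmt`, `CrestStmt`, `PatchStmt`,
`FinalTwistStmt`. The twist statements use `Ident`s (goodness algebra) and `NMStmt` (Nash-Moser).
-/

namespace Vale.Agent.P205F

open scoped Manifold ContDiff RealInnerProductSpace Topology

universe u

/-- The theorem. -/
def IsomStmt : Prop :=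
  ∀ (M : Type u) [TopologicalSpace M] [T2Space M] [CompactSpace M] [ChartedSpace E2 M]
    [IsManifold (𝓡 2) ∞ M] (g : Metric M),
    ∃ f : M → R4, ContMDiff (𝓡 2) (𝓡 4) ∞ f ∧ ∀ (p : M) (v w : TangentSpace (𝓡 2) p),
      @inner ℝ R4 _ (mfderiv (𝓡 2) (𝓡 4) f p v) (mfderiv (𝓡 2) (𝓡 4) f p w) = g.inner p v w

/-- TOP: an immersion with a unit normal field. -/
def TopStmt : Prop :=
  ∀ (M : Type u) [TopologicalSpace M] [T2Space M] [CompactSpace M] [ChartedSpace E2 M]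
    [IsManifold (𝓡 2) ∞ M],
    ∃ f n : M → R4, ContMDiff (𝓡 2) (𝓡 4) ∞ f ∧ ContMDiff (𝓡 2) (𝓡 4) ∞ n ∧
      (∀ ψ : Chart M, IsImm (fun x => f (ψ x))) ∧ (∀ p, ‖n p‖ = 1) ∧
      ∀ (ψ : Chart M) x i, ⟪n (ψ x), pd i (fun z => f (ψ z)) x⟫ = 0

/-- `n` is a smooth unit normal field of the immersion `f`. -/
def Framed {M : Type u} [TopologicalSpace M] [ChartedSpace E2 M] (f n : M → R4) : Prop :=
  ContMDiff (𝓡 2) (𝓡 4) ∞ f ∧ ContMDiff (𝓡 2) (𝓡 4) ∞ n ∧ (∀ p, ‖n p‖ = 1) ∧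
    ∀ ψ : Chart M, IsImm (fun x => f (ψ x)) ∧ ∀ x i, ⟪n (ψ x), pd i (fun z => f (ψ z)) x⟫ = 0

/-- Bounds and positivity near the critical points: second fundamental form and normal connection
bounded by `B`, and `II(e,e)·n ≥ κ |e|²` for the kernel direction `e` of `ν`. -/
def CapBd {M : Type u} [TopologicalSpace M] [ChartedSpace E2 M] [IsManifold (𝓡 2) ∞ M]
    (g : Metric M) (h : Twisted M) (Z : Set M) (κ B : ℝ) (f n : M → R4) : Prop :=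
  ∀ (ψ : Chart M) (x : E2), ψ x ∈ Z →
    let G := gc g ψ x
    let len : E2 → ℝ := fun v => G 0 * v 0 ^ 2 + 2 * G 1 * v 0 * v 1 + G 2 * v 1 ^ 2
    (∀ v, ‖II (fun z => f (ψ z)) x v‖ ≤ B * len v) ∧
    (∀ v, ‖fderiv ℝ (fun z => n (ψ z)) x v‖ ^ 2 ≤ B ^ 2 * len v) ∧
    κ * len (h.efin g ψ x) ≤ ⟪n (ψ x), II (fun z => f (ψ z)) x (h.efin g ψ x)⟫

/-- The fixed data around the critical points of the twisted function. -/
structure Shape (M : Type u) [TopologicalSpace M] [ChartedSpace E2 M] where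
  h : Twisted M
  θf : M → ℝ
  θ0 : M → ℝ
  Z : Set M
  κ : ℝ
  B : ℝ
  crit_finite : h.crit.Finite
  θf_smooth : ContMDiff (𝓡 2) 𝓘(ℝ, ℝ) ∞ θf
  θ0_smooth : ContMDiff (𝓡 2) 𝓘(ℝ, ℝ) ∞ θ0
  θf_range : ∀ p, θf p ∈ Set.Icc (0 : ℝ) 1
  θ0_range : ∀ p, θ0 p ∈ Set.Icc (0 : ℝ) 1
  Z_open : IsOpen Z
  κ_pos : 0 < κ
  crit_off : Disjoint h.crit (tsupport θf)
  θ0_supp : ∀ p ∈ tsupport θ0, ∀ᶠ q in 𝓝 p, θf q = 1
  cover : ∀ p ∈ tsupport θf, p ∈ Z ∨ ∀ᶠ q in 𝓝 p, θ0 q = 1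

/-- One primitive slack term `a² dx²` in a chart. -/
structure Prim (M : Type u) [TopologicalSpace M] [ChartedSpace E2 M] where
  ψ : Chart M
  a : E2 → ℝ
  smooth : ContDiff ℝ ∞ a
  compact : HasCompactSupport a

/-- The value of a primitive term in the chart `φ`. -/
noncomputable def Prim.val {M : Type u} [TopologicalSpace M] [ChartedSpace E2 M] (P : Prim M)
    (φ : Chart M) (x : E2) : S3 :=
  P.a (P.ψ.inv (φ x)) ^ 2 • sq (dcoord P.ψ φ x)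

/-- START (glue and germs): everything before the exact twists, for arbitrarily small `η`.
The listed primitive terms live where the crest is full, away from `Z`, transversal to `ν`. -/
def StartStmt : Prop :=
  ∀ (M : Type u) [TopologicalSpace M] [T2Space M] [CompactSpace M] [ChartedSpace E2 M]
    [IsManifold (𝓡 2) ∞ M] (g : Metric M) (f0 n0 : M → R4), Framed f0 n0 →
    ∃ S : Shape M, ∀ η0 : ℝ, 0 < η0 → ∃ η : ℝ, 0 < η ∧ η ≤ η0 ∧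
      ∃ (f n : M → R4) (N : ℕ) (P : Fin N → Prim M), Framed f n ∧
        CapBd g S.h S.Z S.κ S.B f n ∧
        (∀ φ x, gc g φ x = met (fun z => f (φ z)) x + (η * S.θf (φ x) ^ 2) • sq (S.h.nu g φ x)
          + (η * S.θ0 (φ x) ^ 2) • sq (S.h.d φ x) + ∑ i, (P i).val φ x) ∧
        (∀ p ∈ tsupport S.θf, GdAt f p) ∧
        (∀ i, ∀ x, S.h.nu g (P i).ψ x 1 ≠ 0 ∧ GdAt f ((P i).ψ x)) ∧
        ∀ i, ∀ x ∈ tsupport (P i).a, (P i).ψ x ∉ closure S.Z ∧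
          ∀ᶠ q in 𝓝 ((P i).ψ x), S.θ0 q = 1

/-- A twist exact modulo `ν²` (type (a)), on the plane; phase `x`, error `δ ν²`. -/
def ModTwistStmt : Prop :=
  ∀ (f : E2 → R4) (a : E2 → ℝ) (ν : E2 → Fin 2 → ℝ) (U : Set E2), ContDiff ℝ ∞ f → IsImm f →
    ContDiff ℝ ∞ a → HasCompactSupport a → IsOpen U → tsupport a ⊆ U →
    (∀ i, ContDiff ℝ ∞ fun x => ν x i) → (∀ x ∈ U, ν x 1 ≠ 0) → (∀ x ∈ U, GdAt f x) →
    ∀ ε : ℝ, 0 < ε → ∃ (f' : E2 → R4) (δ : E2 → ℝ),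
      ContDiff ℝ ∞ f' ∧ ContDiff ℝ ∞ δ ∧ IsImm f' ∧
      (∃ K, IsCompact K ∧ K ⊆ U ∧ ∀ x, x ∉ K → f' x = f x) ∧
      HasCompactSupport δ ∧ tsupport δ ⊆ U ∧ (∀ x, |δ x| ≤ ε) ∧
      (∀ x, met f' x = met f x + a x ^ 2 • sq ![1, 0] + δ x • sq (ν x)) ∧
      (∀ x ∈ U, GdAt f' x) ∧
      ∀ x w, nrm f x w = w → w ≠ 0 → nrm f' x w ≠ 0

/-- The crest twist: exact modulo `ν²`, and afterwards `II(e,e) ≠ 0` for the kernel direction. -/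
def CrestStmt : Prop :=
  ∀ (M : Type u) [TopologicalSpace M] [T2Space M] [CompactSpace M] [ChartedSpace E2 M]
    [IsManifold (𝓡 2) ∞ M] (g : Metric M) (S : Shape M),
    ∃ η0 : ℝ, 0 < η0 ∧ ∀ η : ℝ, 0 < η → η ≤ η0 → ∀ (f n : M → R4) (c : M → ℝ),
      Framed f n → CapBd g S.h S.Z S.κ S.B f n → ContMDiff (𝓡 2) 𝓘(ℝ, ℝ) ∞ c →
      tsupport c ⊆ tsupport S.θf → (∀ p ∈ tsupport S.θ0, 0 < c p) →
      (∀ p ∈ S.Z, c p ^ 2 = η * S.θf p ^ 2) → (∀ p, c p ^ 2 ≤ 2 * η) →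
      (∀ φ x, gc g φ x = met (fun z => f (φ z)) x + c (φ x) ^ 2 • sq (S.h.nu g φ x)
        + (η * S.θ0 (φ x) ^ 2) • sq (S.h.d φ x)) →
      (∀ p ∈ tsupport S.θf, GdAt f p) →
      ∃ (f' : M → R4) (c' : M → ℝ) (V : Set M), ContMDiff (𝓡 2) (𝓡 4) ∞ f' ∧
        ContMDiff (𝓡 2) 𝓘(ℝ, ℝ) ∞ c' ∧ IsOpen V ∧ tsupport c' ⊆ V ∧ Disjoint V S.h.crit ∧
        (∀ φ : Chart M, IsImm fun z => f' (φ z)) ∧
        (∀ φ x, gc g φ x = met (fun z => f' (φ z)) x + c' (φ x) ^ 2 • sq (S.h.nu g φ x)) ∧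
        ∀ φ x, φ x ∈ V → GdAt f' (φ x) ∧
          II (fun z => f' (φ z)) x (S.h.efin g φ x) ≠ 0

/-- Flow boxes: near a regular point the kernel of `ν` is the second coordinate line. -/
def PatchStmt : Prop :=
  ∀ (M : Type u) [TopologicalSpace M] [T2Space M] [CompactSpace M] [ChartedSpace E2 M]
    [IsManifold (𝓡 2) ∞ M] (g : Metric M) (h : Twisted M) (V : Set M) (p : M),
    IsOpen V → p ∈ V → p ∉ h.crit →
    ∃ ψ : Chart M, p ∈ Set.range ψ.toFun ∧ Set.range ψ.toFun ⊆ V ∧ ∀ x, h.nu g ψ x 1 = 0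

/-- A final twist (type (b)): exact, phase `x`, absorber `II(∂y,∂y)`. -/
def FinalTwistStmt : Prop :=
  ∀ (f : E2 → R4) (a : E2 → ℝ) (U : Set E2), ContDiff ℝ ∞ f → IsImm f → ContDiff ℝ ∞ a →
    HasCompactSupport a → IsOpen U → tsupport a ⊆ U → (∀ x ∈ U, GdAt f x) →
    (∀ x ∈ U, II f x (ev 1) ≠ 0) →
    ∃ f' : E2 → R4, ContDiff ℝ ∞ f' ∧ IsImm f' ∧
      (∃ K, IsCompact K ∧ K ⊆ U ∧ ∀ x, x ∉ K → f' x = f x) ∧
      (∀ x, met f' x = met f x + a x ^ 2 • sq ![1, 0]) ∧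
      (∀ x ∈ U, GdAt f' x) ∧ ∀ x ∈ U, II f' x (ev 1) ≠ 0

/-- Nash-Moser for `met` with a differential right inverse; the change stays inside `U`. -/
def NMStmt : Prop :=
  ∀ (D : Inv) (k' : ℕ), ∃ k s : ℕ, ∀ (U K : Set E2), IsOpen U → Bornology.IsBounded U →
    IsCompact K → K ⊆ U → ∃ C : ℝ, ∀ (f : E2 → R4) (g : E2 → S3) (Λ δ : ℝ),
      ContDiff ℝ ∞ f → ContDiff ℝ ∞ g → 1 ≤ Λ → 0 ≤ δ → BdOn f U k Λ →
      (∀ x ∈ U, Λ⁻¹ ≤ D.den (jet D.N f x)) → tsupport (fun x => g x - met f x) ⊆ K →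
      BdOn (fun x => g x - met f x) U k δ → C * Λ ^ s * δ ≤ 1 →
      ∃ f' : E2 → R4, ContDiff ℝ ∞ f' ∧
        (∃ K', IsCompact K' ∧ K' ⊆ U ∧ ∀ x, x ∉ K' → f' x = f x) ∧
        (∀ x, met f' x = g x) ∧ BdOn (fun x => f' x - f x) U k' (C * Λ ^ s * δ) ∧
        ∀ x ∈ U, (2 * Λ)⁻¹ ≤ D.den (jet D.N f' x)

end Vale.Agent.P205F
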