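import Vale.Agent.P205F.Assembled
import Vale.Agent.P205F.Top.Main
import Vale.Agent.P205F.Start.All
import Vale.Agent.P205F.Start.Morse
import Vale.Agent.P205F.Start.Flat
import Vale.Agent.P205F.Start.Generic.Main
import Vale.Agent.P205F.Crest.Main

/-!
# P205, every closed surface: reduction to the expansion and goodness lemmas

Only `ExpandStmt`, the kernel-keeping twist `KeepTwistStmt` and `GoodProbStmt` remain as hypotheses.
-/

namespace Vale.Agent.P205F

universe u

/-- START, from the goodness lemma. -/
theorem startStmt_of_goodProb (hG : GoodProbStmt false) : StartStmt.{u} :=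
  Start.startStmt_of (Start.Generic.genericStmt_of_goodProb hG)

/-- The theorem, from the expansions, the kernel-keeping twist and the goodness lemma. -/
theorem isomStmt_of_expand (hE : ∀ b, ExpandStmt b) (hK : KeepTwistStmt)
    (hG : ∀ b, GoodProbStmt b) : IsomStmt.{u} :=
  isomStmt_of_remaining topStmt (startStmt_of_goodProb (hG false))
    (crestStmt hK (Start.Generic.genericStmt_of_goodProb (hG false))) hE hG

end Vale.Agent.P205F
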