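import Mathlib

/-!
# P205, every closed surface: shared definitions (blueprint `P205/FULL_BLUEPRINT.md`)

All analysis is done on the plane. A `Chart` of a surface is an open embedding of the whole plane;
tensors on the surface are handled through their pullbacks by all charts.
-/

namespace Vale.Agent.P205F

open scoped Manifold ContDiff RealInnerProductSpace Topology

/-- The parameter plane. -/
abbrev E2 : Type := EuclideanSpace ℝ (Fin 2)

/-- The target. -/
abbrev R4 : Type := EuclideanSpace ℝ (Fin 4)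

/-- Symmetric two-tensors at a point, as the components `xx, xy, yy`. -/
abbrev S3 : Type := Fin 3 → ℝ

/-- Coordinate vectors. -/
noncomputable def ev (i : Fin 2) : E2 := EuclideanSpace.single i 1

/-- Partial derivatives. -/
noncomputable def pd {X : Type*} [NormedAddCommGroup X] [NormedSpace ℝ X] (i : Fin 2) (f : E2 → X)
    (x : E2) : X := fderiv ℝ f x (ev i)

/-- Pullback of the euclidean metric. -/
noncomputable def met (f : E2 → R4) (x : E2) : S3 :=
  ![⟪pd 0 f x, pd 0 f x⟫, ⟪pd 0 f x, pd 1 f x⟫, ⟪pd 1 f x, pd 1 f x⟫]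

/-- The square of a covector. -/
def sq (p : Fin 2 → ℝ) : S3 := ![p 0 ^ 2, p 0 * p 1, p 1 ^ 2]

/-- Linearisation of `met`. -/
noncomputable def Lin (f w : E2 → R4) (x : E2) : S3 :=
  ![2 * ⟪pd 0 f x, pd 0 w x⟫, ⟪pd 0 f x, pd 1 w x⟫ + ⟪pd 1 f x, pd 0 w x⟫,
    2 * ⟪pd 1 f x, pd 1 w x⟫]

/-- Formal adjoint of `-Lin/2`, for the pairing `q₀W₀ + 2 q₁W₁ + q₂W₂`. -/
noncomputable def Adj (f : E2 → R4) (W : E2 → S3) (x : E2) : R4 :=
  pd 0 (fun z => W z 0 • pd 0 f z + W z 1 • pd 1 f z) x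
    + pd 1 (fun z => W z 1 • pd 0 f z + W z 2 • pd 1 f z) x

/-- Orthogonal projection onto the normal space. -/
noncomputable def nrm (f : E2 → R4) (x : E2) (v : R4) : R4 :=
  (LinearMap.range (fderiv ℝ f x).toLinearMap)ᗮ.starProjection v

/-- Second fundamental form `II(v,v)`. -/
noncomputable def II (f : E2 → R4) (x v : E2) : R4 :=
  nrm f x (fderiv ℝ (fun z => fderiv ℝ f z v) x v)

/-- Immersion. -/
def IsImm (f : E2 → R4) : Prop := ∀ x, Function.Injective (fderiv ℝ f x)

/-- Bounds on derivatives. -/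
def BdOn {X : Type*} [NormedAddCommGroup X] [NormedSpace ℝ X] (f : E2 → X) (U : Set E2) (s : ℕ)
    (B : ℝ) : Prop := ∀ x ∈ U, ∀ i ≤ s, ‖iteratedFDeriv ℝ i f x‖ ≤ B

/-- Jets of order `N`. -/
abbrev Jet (N : ℕ) : Type :=
  (k : Fin (N + 1)) → ContinuousMultilinearMap ℝ (fun _ : Fin (k : ℕ) => E2) R4

/-- The jet of a map. -/
noncomputable def jet (N : ℕ) (f : E2 → R4) (x : E2) : Jet N := fun k => iteratedFDeriv ℝ (k : ℕ) f x

/-- A differential right inverse of `Lin`, rational in finite jets, with denominator `den`. -/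
structure Inv where
  /-- jet order of the coefficients -/
  N : ℕ
  /-- order of the operator -/
  L : ℕ
  den : Jet N → ℝ
  coef : (k : Fin (L + 1)) → Jet N →
    (ContinuousMultilinearMap ℝ (fun _ : Fin (k : ℕ) => E2) S3 →L[ℝ] R4)
  den_nonneg : ∀ z, 0 ≤ den z
  den_smooth : ContDiff ℝ ∞ den
  den_bound : ∀ j : ℕ, ∃ (C : ℝ) (e : ℕ), ∀ z, ‖iteratedFDeriv ℝ j den z‖ ≤ C * (1 + ‖z‖) ^ e
  coef_smooth : ∀ k, ContDiffOn ℝ ∞ (coef k) {z | 0 < den z}
  coef_bound : ∀ k (j : ℕ), ∃ (C : ℝ) (e : ℕ), ∀ z, 0 < den z →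
    ‖iteratedFDeriv ℝ j (coef k) z‖ ≤ C * (1 + ‖z‖ + (den z)⁻¹) ^ e
  inverts : ∀ (f : E2 → R4) (q : E2 → S3), ContDiff ℝ ∞ f → ContDiff ℝ ∞ q → ∀ x,
    0 < den (jet N f x) →
    Lin f (fun z => ∑ k, coef k (jet N f z) (iteratedFDeriv ℝ (k : ℕ) q z)) x = q x

/-- The right inverse applied to a tensor field. -/
noncomputable def Inv.app (D : Inv) (f : E2 → R4) (q : E2 → S3) (z : E2) : R4 :=
  ∑ k, D.coef k (jet D.N f z) (iteratedFDeriv ℝ (k : ℕ) q z)

/-- A left inverse of `Adj`, polynomial-like in finite jets, up to the scalar `den`. Such identities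
are pointwise, hence closed under sums and under changes of coordinates (unlike `Inv`). -/
structure Ident where
  /-- jet order of the coefficients -/
  N : ℕ
  /-- order of the operator -/
  L : ℕ
  den : Jet N → ℝ
  coef : (k : Fin (L + 1)) → Jet N →
    (ContinuousMultilinearMap ℝ (fun _ : Fin (k : ℕ) => E2) R4 →L[ℝ] S3)
  den_nonneg : ∀ z, 0 ≤ den z
  den_temperate : Function.HasTemperateGrowth den
  coef_temperate : ∀ k, Function.HasTemperateGrowth (coef k)
  recovers : ∀ (f : E2 → R4) (W : E2 → S3), ContDiff ℝ ∞ f → ContDiff ℝ ∞ W → ∀ x,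
    den (jet N f x) • W x = ∑ k, coef k (jet N f x) (iteratedFDeriv ℝ (k : ℕ) (Adj f W) x)

/-! ### Surfaces -/

section Surface

variable (M : Type*) [TopologicalSpace M] [ChartedSpace E2 M]

/-- A chart defined on the whole plane. -/
structure Chart where
  toFun : E2 → M
  inv : M → E2
  open_emb : Topology.IsOpenEmbedding toFun
  smooth : ContMDiff (𝓡 2) (𝓡 2) ∞ toFun
  left_inv : ∀ x, inv (toFun x) = x
  smooth_inv : ContMDiffOn (𝓡 2) (𝓡 2) ∞ inv (Set.range toFun)

instance : CoeFun (Chart M) (fun _ => E2 → M) := ⟨Chart.toFun⟩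

variable {M}

/-- A smooth metric on a surface. -/
abbrev Metric (M : Type*) [TopologicalSpace M] [ChartedSpace E2 M] [IsManifold (𝓡 2) ∞ M] :=
  Bundle.ContMDiffRiemannianMetric (𝓡 2) ∞ E2 (fun p : M => TangentSpace (𝓡 2) p)

/-- Components of a metric in a chart. -/
noncomputable def gc [IsManifold (𝓡 2) ∞ M] (g : Metric M) (ψ : Chart M) (x : E2) : S3 :=
  let d : Fin 2 → TangentSpace (𝓡 2) (ψ x) := fun i =>
    mfderiv (𝓡 2) (𝓡 2) ψ.toFun x (ev i)
  ![g.inner (ψ x) (d 0) (d 0), g.inner (ψ x) (d 0) (d 1), g.inner (ψ x) (d 1) (d 1)]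

/-- Goodness at a point: some left inverse with positive denominator there (an open condition,
independent of the chart). -/
def GdAt (f : M → R4) (p : M) : Prop :=
  ∃ (I : Ident) (ψ : Chart M) (x : E2),
    ψ x = p ∧ 0 < I.den (jet I.N (fun z => f (ψ z)) x)

/-- Differential of the first coordinate of the chart `ψ`, in the chart `φ`; zero off `ψ`. -/
noncomputable def dcoord (ψ φ : Chart M) (x : E2) : Fin 2 → ℝ :=
  haveI := Classical.propDecidable (φ x ∈ Set.range ψ.toFun)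
  fun i => if φ x ∈ Set.range ψ.toFun then pd i (fun z => ψ.inv (φ z) 0) x else 0

/-- A section of the orientation bundle, given in every chart. -/
structure Twisted (M : Type*) [TopologicalSpace M] [ChartedSpace E2 M] where
  h : Chart M → E2 → ℝ
  smooth : ∀ ψ, ContDiff ℝ ∞ (h ψ)
  compat : ∀ (ψ φ : Chart M) (x y : E2), ψ x = φ y →
    h ψ x = SignType.sign (fderiv ℝ (fun z => φ.inv (ψ z)) x).det * h φ y

/-- Critical points of a twisted function. -/
def Twisted.crit (h : Twisted M) : Set M :=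
  {p | ∃ (ψ : Chart M) (x : E2), ψ x = p ∧ fderiv ℝ (h.h ψ) x = 0}

/-- Differential of a twisted function in a chart. -/
noncomputable def Twisted.d (h : Twisted M) (ψ : Chart M) (x : E2) : Fin 2 → ℝ :=
  fun i => pd i (h.h ψ) x

/-- A covector `ν` with `ν² = |dh|² g - dh²`. -/
noncomputable def Twisted.nu [IsManifold (𝓡 2) ∞ M] (h : Twisted M) (g : Metric M) (ψ : Chart M)
    (x : E2) : Fin 2 → ℝ :=
  ![(gc g ψ x 0 * h.d ψ x 1 - gc g ψ x 1 * h.d ψ x 0)
      / Real.sqrt (gc g ψ x 0 * gc g ψ x 2 - gc g ψ x 1 ^ 2),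
    (gc g ψ x 1 * h.d ψ x 1 - gc g ψ x 2 * h.d ψ x 0)
      / Real.sqrt (gc g ψ x 0 * gc g ψ x 2 - gc g ψ x 1 ^ 2)]

/-- The vector spanning the kernel of `ν`. -/
noncomputable def Twisted.efin [IsManifold (𝓡 2) ∞ M] (h : Twisted M) (g : Metric M) (ψ : Chart M)
    (x : E2) : E2 := -(h.nu g ψ x 1) • ev 0 + h.nu g ψ x 0 • ev 1

end Surface

end Vale.Agent.P205F
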